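import Vale.Agent.P123C.Reduce

/-! Crouzeix's conjecture: `‖P(A)‖ ≤ 2 sup_{W(A)} |P|`. -/

open Polynomial

namespace Vale.Agent.Results.P123.ACrouzeix

/-- **Crouzeix's conjecture.**  Let `H` be a nonzero complex Hilbert space, `A` a bounded operator on
`H`, `P` a complex polynomial.  If `|P| ≤ M` on the numerical range `{⟪x, A x⟫ : ‖x‖ = 1}` of `A` then
`‖P(A)‖ ≤ 2 M`.  (`inner ℂ x (A x)` is conjugate linear in `x`, and it is `⟨Ax, x⟩` in the convention
of the problem.) -/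
theorem result {H : Type*} [NormedAddCommGroup H] [InnerProductSpace ℂ H] [CompleteSpace H]
    [Nontrivial H] (A : H →L[ℂ] H) (P : ℂ[X]) (M : ℝ)
    (hM : ∀ x : H, ‖x‖ = 1 → ‖P.eval (inner ℂ x (A x))‖ ≤ M) :
    ‖aeval A P‖ ≤ 2 * M :=
  Vale.Agent.P123C.crouzeix A P M hM

end Vale.Agent.Results.P123.ACrouzeix
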