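import Vale.Agent.P123C.Reduce

/-! The value of Crouzeix's constant: the least constant is exactly `2`. -/

open Polynomial

universe u

namespace Vale.Agent.Results.P123.ACrouzeixLeast

/-- The Jordan block on a two dimensional space has norm at least `1` and numerical radius at most
`1 / 2`. -/
theorem jordan_aux {ι : Type u} [Fintype ι] [DecidableEq ι] {i₀ i₁ : ι} (hne : i₀ ≠ i₁) :
    ∃ A : EuclideanSpace ℂ ι →L[ℂ] EuclideanSpace ℂ ι,
      1 ≤ ‖A‖ ∧ ∀ x : EuclideanSpace ℂ ι, ‖x‖ = 1 → ‖inner ℂ x (A x)‖ ≤ 1 / 2 := by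
  set e₀ : EuclideanSpace ℂ ι := EuclideanSpace.single i₀ 1 with he₀
  set e₁ : EuclideanSpace ℂ ι := EuclideanSpace.single i₁ 1 with he₁
  set A : EuclideanSpace ℂ ι →L[ℂ] EuclideanSpace ℂ ι := (innerSL ℂ e₁).smulRight e₀ with hA
  have hAx : ∀ x : EuclideanSpace ℂ ι, A x = (x i₁) • e₀ := by
    intro x
    simp [hA, he₁, EuclideanSpace.inner_single_left]
  refine ⟨A, ?_, ?_⟩
  · have h1 : ‖e₁‖ = 1 := by simp [he₁]
    have h0 : ‖e₀‖ = 1 := by simp [he₀]
    have := A.le_opNorm e₁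
    rw [hAx, h1, mul_one, norm_smul, h0, mul_one] at this
    simpa [he₁] using this
  · intro x hx
    rw [hAx, inner_smul_right]
    have e : inner ℂ x e₀ = starRingEnd ℂ (x i₀) := by
      simp [he₀, EuclideanSpace.inner_single_right]
    rw [e, norm_mul, RCLike.norm_conj]
    have hsum : ‖x i₀‖ ^ 2 + ‖x i₁‖ ^ 2 ≤ 1 := by
      have h2 := EuclideanSpace.norm_sq_eq x
      rw [hx] at h2
      have h3 : ∑ i ∈ ({i₀, i₁} : Finset ι), ‖x i‖ ^ 2 ≤ ∑ i, ‖x i‖ ^ 2 :=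
        Finset.sum_le_univ_sum_of_nonneg (fun _ => by positivity)
      rw [Finset.sum_pair hne, ← h2] at h3
      simpa using h3
    nlinarith [sq_nonneg (‖x i₀‖ - ‖x i₁‖)]

theorem jordan_example : ∃ (H : Type u) (_ : NormedAddCommGroup H) (_ : InnerProductSpace ℂ H)
    (_ : CompleteSpace H) (_ : Nontrivial H) (A : H →L[ℂ] H),
    1 ≤ ‖A‖ ∧ ∀ x : H, ‖x‖ = 1 → ‖inner ℂ x (A x)‖ ≤ 1 / 2 := by
  have hne : (⟨0⟩ : ULift.{u} (Fin 2)) ≠ ⟨1⟩ := by
    intro h
    have := congrArg ULift.down h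
    simp at this
  obtain ⟨A, hA1, hA2⟩ := jordan_aux hne
  have hnt : Nontrivial (EuclideanSpace ℂ (ULift.{u} (Fin 2))) := by
    refine ⟨⟨EuclideanSpace.single ⟨0⟩ 1, EuclideanSpace.single ⟨1⟩ 1, ?_⟩⟩
    intro h
    have := congrArg (fun v : EuclideanSpace ℂ (ULift.{u} (Fin 2)) => v ⟨0⟩) h
    simp at this
  exact ⟨_, inferInstance, inferInstance, inferInstance, hnt, A, hA1, hA2⟩

/-- **The value of Crouzeix's constant.**  The least constant `C` such that
`‖P(A)‖ ≤ C M` whenever `A` is a bounded operator on a nonzero complex Hilbert space, `P` a complex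
polynomial, and `|P| ≤ M` on the numerical range `{⟪x, A x⟫ : ‖x‖ = 1}` of `A`, is exactly `2`. -/
theorem result : IsLeast {C : ℝ | ∀ (H : Type u) [NormedAddCommGroup H] [InnerProductSpace ℂ H]
    [CompleteSpace H] [Nontrivial H] (A : H →L[ℂ] H) (P : ℂ[X]) (M : ℝ),
    (∀ x : H, ‖x‖ = 1 → ‖P.eval (inner ℂ x (A x))‖ ≤ M) → ‖aeval A P‖ ≤ C * M} 2 := by
  constructor
  · intro H _ _ _ _ A P M hM
    exact Vale.Agent.P123C.crouzeix A P M hM
  · intro C hC
    obtain ⟨H, i1, i2, i3, i4, A, hA1, hA2⟩ := jordan_example.{u}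
    have h := @hC H i1 i2 i3 i4 A X (1 / 2) (by simpa using hA2)
    simp only [aeval_X] at h
    linarith

end Vale.Agent.Results.P123.ACrouzeixLeast
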