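import Vale.Agent.Lib.P123_Quadratic

open Polynomial

/-- Crouzeix's inequality with constant two for every polynomial of degree at most two: for a bounded
operator `A` on a nonzero complex inner product space and a complex polynomial `P` with
`P.natDegree ≤ 2`, if `|P z| ≤ M` at every point `z = inner ℂ x (A x)`, `‖x‖ = 1`, of the numerical
range of `A`, then the operator norm of `P A` is at most `2 * M`. The space may have any dimension
and completeness is not needed. -/
theorem Vale.Agent.Results.P123.AllQuadratics.result
    {H : Type*} [NormedAddCommGroup H] [InnerProductSpace ℂ H] [Nontrivial H] (A : H →L[ℂ] H)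
    (P : ℂ[X]) (hP : P.natDegree ≤ 2) (M : ℝ)
    (hM : ∀ x : H, ‖x‖ = 1 → ‖P.eval (inner ℂ x (A x))‖ ≤ M) :
    ‖aeval A P‖ ≤ 2 * M :=
  Vale.Agent.P123.crouzeix_quadratic A P hP M hM
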