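import Vale.Agent.Lib.P123_Core

open Polynomial

/-- Crouzeix type inequalities with constant two, for a bounded operator `A` on a nonzero complex
inner product space. The numerical range of `A` is the set of values `inner ℂ x (A x)`, `‖x‖ = 1`.

(1) Power inclusion. If a convex set `K` contains the numerical range and `ω * K ⊆ K` for a primitive
`k`-th root of unity `ω`, then every `k`-th root of `inner ℂ x (A ^ k x)` lies in the closure of `K`,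
and `‖a • A ^ k + b‖ ≤ 2 * M` as soon as `|a z ^ k + b| ≤ M` on `K`.

(2) If the numerical range itself is invariant under the rotation `z ↦ m + ω (z - m)`, then
`‖a • (A - m) ^ k + b‖ ≤ 2 * sup |a (z - m) ^ k + b|`, the supremum over the numerical range.

(3) Lemniscates. If the sublevel set `{z | |P z| ≤ ρ}` of a polynomial `P` is convex and contains the
numerical range, then the numerical radius of `P A` is at most `ρ` and `‖P A‖ ≤ 2 * ρ`.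

(4) Quadratics. If `|(z - r) (z - s)| ≤ M` on the numerical range and `|r - s| ^ 2 / 2 ≤ M`, then
`‖(A - r) (A - s)‖ ≤ 2 * M`. -/
theorem Vale.Agent.Results.P123.RotationalAndLemniscate.result
    {H : Type*} [NormedAddCommGroup H] [InnerProductSpace ℂ H] [Nontrivial H] (A : H →L[ℂ] H) :
    (∀ (k : ℕ) (ω : ℂ) (K : Set ℂ), 2 ≤ k → IsPrimitiveRoot ω k → Convex ℝ K →
      (∀ z ∈ K, ω * z ∈ K) → (∀ x : H, ‖x‖ = 1 → inner ℂ x (A x) ∈ K) →
      (∀ x : H, ‖x‖ = 1 → ∀ z : ℂ, z ^ k = inner ℂ x ((A ^ k) x) → z ∈ closure K) ∧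
      (∀ (a b : ℂ) (M : ℝ), (∀ z ∈ K, ‖a * z ^ k + b‖ ≤ M) →
        ‖a • A ^ k + b • (1 : H →L[ℂ] H)‖ ≤ 2 * M)) ∧
    (∀ (k : ℕ) (ω m a b : ℂ) (M : ℝ), 2 ≤ k → IsPrimitiveRoot ω k →
      (∀ x : H, ‖x‖ = 1 → ∃ y : H, ‖y‖ = 1 ∧ inner ℂ y (A y) = m + ω * (inner ℂ x (A x) - m)) →
      (∀ x : H, ‖x‖ = 1 → ‖a * (inner ℂ x (A x) - m) ^ k + b‖ ≤ M) →
      ‖a • (A - m • (1 : H →L[ℂ] H)) ^ k + b • (1 : H →L[ℂ] H)‖ ≤ 2 * M) ∧
    (∀ (P : ℂ[X]) (ρ : ℝ), 0 < ρ → Convex ℝ {z : ℂ | ‖P.eval z‖ ≤ ρ} →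
      (∀ x : H, ‖x‖ = 1 → ‖P.eval (inner ℂ x (A x))‖ ≤ ρ) →
      (∀ x : H, ‖x‖ = 1 → ‖inner ℂ x (aeval A P x)‖ ≤ ρ) ∧ ‖aeval A P‖ ≤ 2 * ρ) ∧
    (∀ (r s : ℂ) (M : ℝ), ‖r - s‖ ^ 2 / 2 ≤ M →
      (∀ x : H, ‖x‖ = 1 → ‖(inner ℂ x (A x) - r) * (inner ℂ x (A x) - s)‖ ≤ M) →
      ‖(A - r • (1 : H →L[ℂ] H)) * (A - s • (1 : H →L[ℂ] H))‖ ≤ 2 * M) := by
  refine ⟨?_, ?_, ?_, ?_⟩
  · intro k ω K hk hω hK hrot hW
    exact ⟨Vale.Agent.P123.power_mem_closure A hk hω hK hrot hW,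
      fun a b M hM => Vale.Agent.P123.power_opNorm_le A hk hω hK hrot hW a b M hM⟩
  · intro k ω m a b M hk hω hrot hM
    exact Vale.Agent.P123.symmetric_range_bound A hk hω m a b M hrot hM
  · intro P ρ hρ hL hW
    have h := Vale.Agent.P123.lemniscate_numerical_radius A P ρ hρ hL hW
    exact ⟨h, Vale.Agent.P123.opNorm_le_two_mul _ ρ hρ.le h⟩
  · intro r s M hrs hM
    exact Vale.Agent.P123.quadratic_bound A r s M hrs hM
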